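/-
P235-LL (helper611).  Domains: `Good`, and the metric half of the closure under one move.
-/
import Vale.Agent.P235.LL.H834.TG
import Vale.Agent.P235.H510.Ear
import Vale.Agent.P235.H555.Minor
import Vale.Agent.P235.Comp.Core
import Vale.Agent.P235.Bdl.B1

set_option linter.all false
set_option autoImplicit false

namespace Vale.Agent.P235.LL

open SimpleGraph H510

variable {V : Type}

/-- the vertices outside `U` with a neighbour in `U` -/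
def Nb (G : SimpleGraph V) (U : Set V) : Set V := {b | b ∉ U ∧ ∃ v ∈ U, G.Adj v b}

/-- `U` is connected in `G` (walk form) -/
def WConn (G : SimpleGraph V) (U : Set V) : Prop :=
  ∀ u ∈ U, ∀ v ∈ U, ∃ p : G.Walk u v, ∀ z ∈ p.support, z ∈ U

/-- the distance condition (a) of a piece -/
def CondA (G : SimpleGraph V) (ℓ : Sym2 V → ℝ) (U P : Set V) (w : V → ℝ) : Prop :=
  ∀ b ∈ P, ∀ b' ∈ P, ∀ v v' (p : G.Walk v v'), (∀ z ∈ p.support, z ∈ U) → G.Adj v b →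
    G.Adj v' b' → |w b - w b'| ≤ ℓ s(v, b) + wl ℓ p + ℓ s(v', b')

/-- a domain: a connected set `U` and two or three pieces (`P 2` may be a copy of `P 1` and so on),
each with its coordinate `w i` -/
structure Good (G : SimpleGraph V) (ℓ : Sym2 V → ℝ) (U : Set V) (P : Fin 3 → Set V)
    (w : Fin 3 → V → ℝ) : Prop where
  ne : U.Nonempty
  conn : WConn G U
  out : ∀ i, Disjoint U (P i)
  pne : ∀ i, (P i).Nonempty
  foot : ∀ i, ∀ b ∈ P i, ∃ v ∈ U, G.Adj v b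
  cover : ∀ v ∈ U, ∀ b, b ∉ U → G.Adj v b → ∃ i, b ∈ P i
  disj : ∀ i j, (P i = P j ∧ w i = w j) ∨ Disjoint (P i) (P j)
  two : ∃ i j, Disjoint (P i) (P j)
  inj : ∀ i, Set.InjOn (w i) (P i)
  a : ∀ i, CondA G ℓ U (P i) (w i)
  b : ∀ i, ∀ b ∈ P i, ∀ b' ∈ P i, pathDist G ℓ b b' ≤ |w i b - w i b'|
  c : ∀ i, H555.Pl (TG G U (P i) (w i))

/-- steep edges: edges of slope at least `θ` between visible vertices, and the edges of the path
through `P` if `τ = w` -/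
def Steep (G : SimpleGraph V) (ℓ : Sym2 V → ℝ) (U P : Set V) (w τ c s : V → ℝ) (θ : ℝ)
    (x y : V) : Prop :=
  ((x ∈ U ∧ θ ≤ s x) ∨ x ∈ P) ∧ ((y ∈ U ∧ θ ≤ s y) ∨ y ∈ P) ∧ c x < c y ∧
    ((G.Adj x y ∧ θ * ℓ s(x, y) ≤ c y - c x) ∨ (ConsIn P w x y ∧ ∀ b ∈ P, τ b = w b))

theorem steep_step {G : SimpleGraph V} {ℓ : Sym2 V → ℝ} 
    (hℓ : ∀ e ∈ G.edgeSet, 0 < ℓ e) {U P : Set V} {w τ c s : V → ℝ} {θ : ℝ} (h0 : 0 < θ)
    (h1 : θ ≤ 1) (cP : ∀ b ∈ P, c b = τ b)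
    (hb : ∀ b ∈ P, ∀ b' ∈ P, pathDist G ℓ b b' ≤ |w b - w b'|) {x y : V}
    (h : Steep G ℓ U P w τ c s θ x y) :
    c x < c y ∧ θ * pathDist G ℓ x y ≤ c y - c x := by
  obtain ⟨-, -, hlt, h⟩ := h
  refine ⟨hlt, ?_⟩
  rcases h with ⟨hadj, h⟩ | ⟨⟨hx, hy, hw, -⟩, hτ⟩
  · exact (mul_le_mul_of_nonneg_left (pathDist_adj hℓ hadj) h0.le).trans h
  · have e1 : c x = w x := by rw [cP x hx, hτ x hx]
    have e2 : c y = w y := by rw [cP y hy, hτ y hy]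
    have h2 := hb x hx y hy
    rw [abs_sub_comm, abs_of_pos (sub_pos.2 hw)] at h2
    rw [e1, e2]
    have h3 : 0 ≤ pathDist G ℓ x y := pathDist_nonneg hℓ x y
    nlinarith

/-- along steep edges `θ d ≤ c y - c x` -/
theorem steep_dist [Finite V] {G : SimpleGraph V} {ℓ : Sym2 V → ℝ} (hc : G.Connected)
    (hℓ : ∀ e ∈ G.edgeSet, 0 < ℓ e) {U P : Set V} {w τ c s : V → ℝ} {θ : ℝ} (h0 : 0 < θ)
    (h1 : θ ≤ 1) (cP : ∀ b ∈ P, c b = τ b)
    (hb : ∀ b ∈ P, ∀ b' ∈ P, pathDist G ℓ b b' ≤ |w b - w b'|) {x y : V}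
    (h : Relation.TransGen (Steep G ℓ U P w τ c s θ) x y) :
    c x < c y ∧ θ * pathDist G ℓ x y ≤ c y - c x := by
  induction h with
  | single h => exact steep_step hℓ h0 h1 cP hb h
  | @tail y z _ h ih =>
    obtain ⟨h2, h3⟩ := steep_step hℓ h0 h1 cP hb h
    refine ⟨ih.1.trans h2, ?_⟩
    have h4 := (pathDist_isMet hc hℓ).tri x y z
    have h5 := mul_le_mul_of_nonneg_left h4 h0.le
    linarith [ih.2]

/-- slopes of a coordinate on the edges and darts of `U` -/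
structure Slopes (G : SimpleGraph V) (ℓ : Sym2 V → ℝ) (U P : Set V) (c s : V → ℝ) : Prop where
  edge : ∀ u v, u ∈ U → v ∈ U → G.Adj u v → |c u - c v| ≤ min (s u) (s v) * ℓ s(u, v)
  dart : ∀ u b, u ∈ U → b ∈ P → G.Adj u b → |c u - c b| ≤ s u * ℓ s(u, b)

theorem Slopes.nb {G : SimpleGraph V} {ℓ : Sym2 V → ℝ} {U P : Set V} {c s : V → ℝ}
    (h : Slopes G ℓ U P c s) (hℓ : ∀ e ∈ G.edgeSet, 0 < ℓ e) {θ : ℝ} {v b : V} (hv : v ∈ U)
    (hs : s v ≤ θ) (hb : b ∈ U ∨ b ∈ P) (hadj : G.Adj v b) : |c v - c b| ≤ θ * ℓ s(v, b) := by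
  have hl := hℓ _ (G.mem_edgeSet.2 hadj)
  rcases hb with hb | hb
  · refine (h.edge v b hv hb hadj).trans (mul_le_mul_of_nonneg_right ?_ hl.le)
    exact (min_le_left _ _).trans hs
  · exact (h.dart v b hv hb hadj).trans (mul_le_mul_of_nonneg_right hs hl.le)

theorem Slopes.walk {G : SimpleGraph V} {ℓ : Sym2 V → ℝ} {U P : Set V} {c s : V → ℝ}
    (h : Slopes G ℓ U P c s) (hℓ : ∀ e ∈ G.edgeSet, 0 < ℓ e) {θ : ℝ} {U' : Set V}
    (hU' : ∀ v ∈ U', v ∈ U ∧ s v ≤ θ) {v v' : V} (p : G.Walk v v')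
    (hp : ∀ z ∈ p.support, z ∈ U') : |c v - c v'| ≤ θ * wl ℓ p := by
  induction p with
  | nil => simp
  | @cons u v x hadj p ih =>
    rw [wl_cons, mul_add]
    have h1 := ih (fun z hz => hp z (by simp [hz]))
    have h2 := h.nb hℓ (hU' u (hp u (by simp))).1 (hU' u (hp u (by simp))).2
      (Or.inl (hU' v (hp v (by simp))).1) hadj
    exact (abs_sub_le _ _ _).trans (add_le_add h2 h1)

/-- (a) for a new piece with `w' = c / θ` -/
theorem condA_child {G : SimpleGraph V} {ℓ : Sym2 V → ℝ} {U P : Set V} {c s : V → ℝ}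
    (h : Slopes G ℓ U P c s) (hℓ : ∀ e ∈ G.edgeSet, 0 < ℓ e) {θ : ℝ} (h0 : 0 < θ) {U' : Set V}
    (hU' : ∀ v ∈ U', v ∈ U ∧ s v ≤ θ) {P' : Set V} (hP' : ∀ b ∈ P', b ∈ U ∨ b ∈ P) :
    CondA G ℓ U' P' (fun v => c v / θ) := by
  intro b hb b' hb' v v' p hp hvb hvb'
  have hv : v ∈ U' := hp v p.start_mem_support
  have hv' : v' ∈ U' := hp v' p.end_mem_support
  have h1 := h.nb hℓ (hU' v hv).1 (hU' v hv).2 (hP' b hb) hvb
  have h2 := h.nb hℓ (hU' v' hv').1 (hU' v' hv').2 (hP' b' hb') hvb'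
  have h3 := h.walk hℓ hU' p hp
  have e : c b / θ - c b' / θ = (c b - c b') / θ := by ring
  show |c b / θ - c b' / θ| ≤ _
  rw [e, abs_div, abs_of_pos h0, div_le_iff₀ h0]
  have h4 : c b - c b' = (c b - c v) + (c v - c v') + (c v' - c b') := by ring
  rw [h4]
  refine (abs_add_le _ _).trans ?_
  have h5 := abs_add_le (c b - c v) (c v - c v')
  rw [abs_sub_comm] at h1
  have h6 : |c v' - c b'| ≤ θ * ℓ s(v', b') := h2
  nlinarith

/-- (a) is inherited by smaller sets -/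
theorem CondA.mono {G : SimpleGraph V} {ℓ : Sym2 V → ℝ} {U U' P P' : Set V} {w : V → ℝ}
    (h : CondA G ℓ U P w) (hU : U' ⊆ U) (hP : P' ⊆ P) : CondA G ℓ U' P' w :=
  fun b hb b' hb' v v' p hp h1 h2 => h b (hP hb) b' (hP hb') v v' p (fun z hz => hU (hp z hz)) h1 h2

end Vale.Agent.P235.LL
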