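/-
P235-LL (helper611).  The graph half: the rows (named statements) between the structure lemma and
the system of domains.
-/
import Vale.Agent.P235.LL.H611.Good
import Vale.Agent.P235.H510.Coord
import Vale.Agent.P235.LL.Rows
import Vale.Agent.P235.R2.RED.Swept

set_option linter.all false
set_option autoImplicit false

namespace Vale.Agent.P235.LL

open SimpleGraph H510

/-- the good domains of the system: `Good` and all six coordinates are steepest-ear extensions -/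
def GD {V : Type} (G : SimpleGraph V) (ℓ : Sym2 V → ℝ) (D : Dom V) : Prop :=
  Good G ℓ D.U D.P D.w ∧
    ∀ k, ∃ ct, IsCoord G ℓ D.U (D.P k.1) (D.tau k) ct (D.c k) (D.s k)

/-- standing hypotheses on the graph -/
structure Std {V : Type} (G : SimpleGraph V) (ℓ : Sym2 V → ℝ) : Prop where
  conn : G.Connected
  pos : ∀ e ∈ G.edgeSet, 0 < ℓ e
  card : 3 ≤ Nat.card V
  cut : ∀ v, (G.induce {x | x ≠ v}).Connected
  plane : ∃ σ : Equiv.Perm G.Dart, PlaneMap G σ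

/-- (COORDS) a good set of pieces has coordinates -/
def RowCoords : Prop := ∀ (V : Type) [Finite V] (G : SimpleGraph V) (ℓ : Sym2 V → ℝ), Std G ℓ →
  ∀ U P w, Good G ℓ U P w → ∃ D : Dom V, D.U = U ∧ D.P = P ∧ D.w = w ∧ GD G ℓ D

/-- (CTRL) control of the metric by the coordinates -/
def RowCtrl : Prop := ∀ (V : Type) [Finite V] (G : SimpleGraph V) (ℓ : Sym2 V → ℝ), Std G ℓ →
  ∀ D, GD G ℓ D → ∀ v b v' b', D.Dart G v b → D.Dart G v' b' →
    pathDist G ℓ b b' ≤ 2 * ∑ k, |D.X ℓ k v b - D.X ℓ k v' b'|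

/-- (ISDOM) good domains satisfy the axioms -/
def RowIsDom : Prop := ∀ (V : Type) [Finite V] (G : SimpleGraph V) (ℓ : Sym2 V → ℝ), Std G ℓ →
  ∀ D, GD G ℓ D → IsDom G ℓ D

/-- (CHILD) one move -/
def RowChild : Prop := ∀ (V : Type) [Finite V] (G : SimpleGraph V) (ℓ : Sym2 V → ℝ), Std G ℓ →
  ∀ D, GD G ℓ D → ∀ k j, ∀ x ∉ D.vis k (j + 1), ∃ P' w',
    Good G ℓ (compSet G (D.vis k (j + 1)) x) P' w' ∧
    (∀ i, ∀ b ∈ P' i, b ∈ D.U ∨ b ∈ D.P k.1) ∧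
    ∀ i, (∀ b ∈ P' i, w' i b = 2 ^ (j + 1) * D.cv k b) ∨
      (k.2 = false ∧ ∀ b ∈ P' i, b ∈ D.P k.1)

/-- (TE) the map of one step, as in `Sys.step` -/
def RowTE : Prop := ∃ C : ℝ, 1 ≤ C ∧ ∀ (V : Type) [Finite V] (G : SimpleGraph V)
  (ℓ : Sym2 V → ℝ), Std G ℓ → ∀ D, GD G ℓ D → ∀ k j, ∃ ψ : V → V → ℝ, IsL1 ψ ∧
    (∀ a ∈ D.vis k j, ∀ b ∈ D.vis k j, ψ a b = 0) ∧
    (∀ a ∈ D.vis k (j + 1), ∀ b ∈ D.vis k (j + 1), ψ a b ≤ pathDist G ℓ a b) ∧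
    (∀ a ∈ D.vis k (j + 1), ∀ b ∈ D.vis k (j + 1),
      min (pathDist G ℓ a b) (dto G ℓ (D.vis k j) a + dto G ℓ (D.vis k j) b) ≤
        (C * Swp.LL (Nat.card V)) * ψ a b)

/-- (START) the components of `G - {r, r'}` -/
def RowStart : Prop := ∀ (V : Type) [Finite V] (G : SimpleGraph V) (ℓ : Sym2 V → ℝ), Std G ℓ →
  ∀ r r', G.Adj r r' → ∀ x, x ≠ r → x ≠ r' → ∃ P w, Good G ℓ (compSet G {r, r'} x) P w

end Vale.Agent.P235.LL
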