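/-
P235-LL (helper611).  (CHILD): one move leads to good sets of pieces.
-/
import Vale.Agent.P235.LL.H611.GRows
import Vale.Agent.P235.H510.Child

set_option linter.all false
set_option autoImplicit false

namespace Vale.Agent.P235.LL

open SimpleGraph H510

/-- the structure lemma for `τ = w` -/
def StructW : Prop := ∀ (V : Type) [Finite V] (G : SimpleGraph V) (ℓ : Sym2 V → ℝ),
  G.Connected → (∀ e ∈ G.edgeSet, 0 < ℓ e) → ∀ (U P K : Set V) (w ct c s : V → ℝ) (θ : ℝ),
  WConn G U → Disjoint U P → P.Nonempty → (∀ b ∈ P, ∃ v ∈ U, G.Adj v b) → Set.InjOn w P →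
  (∀ b ∈ P, ∀ b' ∈ P, pathDist G ℓ b b' ≤ |w b - w b'|) → H555.Pl (TG G U P w) →
  (SP G U P).Nonempty → IsCoord G ℓ U P w ct c s → 0 < θ → θ ≤ 1 → K ⊆ U →
  (∀ v ∈ K, s v < θ) → (G.induce K).Connected →
  (∀ v ∈ K, ∀ y ∈ U, G.Adj v y → y ∈ K ∨ θ ≤ s y) → 2 ≤ (Nb G K).ncard →
  ∃ N : Fin 2 → Set V, (∀ i, (N i).Nonempty) ∧ Disjoint (N 0) (N 1) ∧
    (∀ b, b ∈ Nb G K ↔ ∃ i, b ∈ N i) ∧
    ∀ i, Set.InjOn c (N i) ∧
      (∀ b ∈ N i, ∀ b' ∈ N i, pathDist G ℓ b b' ≤ |c b - c b'| / θ) ∧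
      H555.Pl (TG G K (N i) (fun v => c v / θ))

/-- the structure lemma for `τ = 0` -/
def Struct0 : Prop := ∀ (V : Type) [Finite V] (G : SimpleGraph V) (ℓ : Sym2 V → ℝ),
  G.Connected → (∀ e ∈ G.edgeSet, 0 < ℓ e) → ∀ (U P K : Set V) (w ct c s : V → ℝ) (θ : ℝ),
  WConn G U → Disjoint U P → P.Nonempty → (∀ b ∈ P, ∃ v ∈ U, G.Adj v b) → Set.InjOn w P →
  (∀ b ∈ P, ∀ b' ∈ P, pathDist G ℓ b b' ≤ |w b - w b'|) → H555.Pl (TG G U P w) →
  (SP G U P).Nonempty → IsCoord G ℓ U P (fun _ => 0) ct c s → 0 < θ → θ ≤ 1 → K ⊆ U →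
  (∀ v ∈ K, s v < θ) → (G.induce K).Connected →
  (∀ v ∈ K, ∀ y ∈ U, G.Adj v y → y ∈ K ∨ θ ≤ s y) → 2 ≤ (Nb G K).ncard →
  ∃ (N : Fin 3 → Set V) (ty : Fin 3 → Bool), (∀ i, (N i).Nonempty) ∧ Disjoint (N 0) (N 1) ∧
    ((N 2 = N 1 ∧ ty 2 = ty 1) ∨ (Disjoint (N 2) (N 0) ∧ Disjoint (N 2) (N 1))) ∧
    (∀ b, b ∈ Nb G K ↔ ∃ i, b ∈ N i) ∧
    (∀ i, ty i = true → Set.InjOn c (N i) ∧
      (∀ b ∈ N i, ∀ b' ∈ N i, pathDist G ℓ b b' ≤ |c b - c b'| / θ) ∧
      H555.Pl (TG G K (N i) (fun v => c v / θ))) ∧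
    (∀ i, ty i = false → N i ⊆ P ∧ H555.Pl (TG G K (N i) w))

section basic

variable {V : Type} {G : SimpleGraph V} {ℓ : Sym2 V → ℝ}

/-- a connected set which misses two vertices has two neighbours, if there is no cut vertex -/
theorem two_nb [Finite V] (hc : G.Connected) (hcut : ∀ v, (G.induce {x | x ≠ v}).Connected)
    {K : Set V} {x a b : V} (hx : x ∈ K) (ha : a ∉ K) (hb : b ∉ K) (hab : a ≠ b) :
    2 ≤ (Nb G K).ncard := by
  classical
  obtain ⟨p⟩ := hc.preconnected x a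
  obtain ⟨d, -, hd1, hd2⟩ := p.exists_boundary_dart K hx ha
  have h0 : d.snd ∈ Nb G K := ⟨hd2, d.fst, hd1, d.adj⟩
  obtain ⟨a', ha', hne⟩ : ∃ a', a' ∉ K ∧ a' ≠ d.snd := by
    by_cases h : a = d.snd
    · exact ⟨b, hb, fun e => hab (h.trans e.symm)⟩
    · exact ⟨a, ha, h⟩
  have hx' : x ≠ d.snd := fun e => hd2 (e ▸ hx)
  obtain ⟨q⟩ := (hcut d.snd).preconnected ⟨x, hx'⟩ ⟨a', hne⟩
  obtain ⟨e, -, he1, he2⟩ := q.exists_boundary_dart {y | (y : V) ∈ K} hx ha'
  have h1 : e.snd.1 ∈ Nb G K := ⟨he2, e.fst.1, he1, e.adj⟩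
  have hne2 : d.snd ≠ e.snd.1 := fun h => e.snd.2 h.symm
  exact (Set.one_lt_ncard (Set.toFinite _)).2 ⟨_, h0, _, h1, hne2⟩

end basic

theorem rowChild_of (hW : StructW) (h0 : Struct0) : RowChild := by
  classical
  intro V _ G ℓ hS D hD k j x hx
  obtain ⟨hg, hco⟩ := hD
  obtain ⟨ct, hc⟩ := hco k
  set θ : ℝ := 1 / 2 ^ (j + 1) with hθ
  have hpow : (0 : ℝ) < 2 ^ (j + 1) := by positivity
  have hθ0 : 0 < θ := by positivity
  have hθ1 : θ ≤ 1 := by
    rw [hθ, div_le_one hpow]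
    exact one_le_pow₀ (by norm_num)
  have hvis : ∀ v, v ∉ D.vis k (j + 1) ↔ v ∈ D.U ∧ D.s k v < θ := by
    intro v
    have e : D.s k v < θ ↔ 2 ^ (j + 1) * D.s k v < 1 := by
      rw [hθ, lt_div_iff₀ hpow, mul_comm]
    rw [e]
    constructor
    · intro h
      have h1 : v ∈ D.U := by
        by_contra h2
        exact h (fun h3 => absurd h3 h2)
      refine ⟨h1, ?_⟩
      by_contra h2
      exact h (fun _ => ⟨by omega, not_lt.1 h2⟩)
    · rintro ⟨h1, h2⟩ h3
      exact absurd (h3 h1).2 (not_le.2 h2)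
  set K : Set V := compSet G (D.vis k (j + 1)) x with hK
  have hxK : x ∈ K := ReachOff.refl hx
  have hK1 : ∀ v ∈ K, v ∈ D.U ∧ D.s k v < θ := fun v hv => (hvis v).1 (ReachOff.right hv)
  have hKU : K ⊆ D.U := fun v hv => (hK1 v hv).1
  have hKc : (G.induce K).Connected := comp_connected hx
  have hK3 : ∀ v ∈ K, ∀ y ∈ D.U, G.Adj v y → y ∈ K ∨ θ ≤ D.s k y := by
    intro v hv y hy hvy
    by_cases h : θ ≤ D.s k y
    · exact Or.inr h
    · exact Or.inl (ReachOff.trans hv (ReachOff.adj (ReachOff.right hv)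
        ((hvis y).2 ⟨hy, not_le.1 h⟩) hvy))
  obtain ⟨i1, i2, hdis⟩ := hg.two
  obtain ⟨a1, ha1⟩ := hg.pne i1
  obtain ⟨a2, ha2⟩ := hg.pne i2
  have ha12 : a1 ≠ a2 := fun e => Set.disjoint_left.1 hdis ha1 (e ▸ ha2)
  have hn1 : a1 ∉ K := fun h => Set.disjoint_left.1 (hg.out i1) (hKU h) ha1
  have hn2 : a2 ∉ K := fun h => Set.disjoint_left.1 (hg.out i2) (hKU h) ha2
  have hK4 : 2 ≤ (Nb G K).ncard := two_nb hS.conn hS.cut hxK hn1 hn2 ha12
  -- a vertex of another piece
  have hSP : (SP G D.U (D.P k.1)).Nonempty := by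
    have key : ∃ i, Disjoint (D.P i) (D.P k.1) := by
      rcases hg.disj i1 k.1 with h | h
      · exact ⟨i2, by rw [← h.1]; exact hdis.symm⟩
      · exact ⟨i1, h⟩
    obtain ⟨i, hi⟩ := key
    obtain ⟨b, hb⟩ := hg.pne i
    obtain ⟨v, hv, hvb⟩ := hg.foot i b hb
    exact ⟨v, hv, b, fun h => Set.disjoint_left.1 (hg.out i) h hb,
      fun h => Set.disjoint_left.1 hi hb h, hvb⟩
  have hnbK : ∀ b ∈ Nb G K, b ∈ D.U ∨ b ∈ D.P k.1 := by
    rintro b ⟨hb, v, hv, hvb⟩
    by_contra hcon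
    push Not at hcon
    have h1 : v ∈ SP G D.U (D.P k.1) := ⟨hKU hv, b, hcon.1, hcon.2, hvb⟩
    have h2 := hc.sS v h1
    have h3 := (hK1 v hv).2
    rw [h2] at h3
    linarith
  have hconn : WConn G K := fun u hu v hv => by
    obtain ⟨p, hp⟩ := ReachOff.trans (ReachOff.symm hu) hv
    refine ⟨p, fun z hz => ?_⟩
    exact ReachOff.trans hu ⟨p.takeUntil z hz, fun a ha => hp a
      (p.support_takeUntil_subset hz ha)⟩
  have hslope : Slopes G ℓ D.U (D.P k.1) (D.c k) (D.s k) :=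
    ⟨hc.edge, fun u b hu hb h => by rw [hc.cP b hb]; exact hc.dart u b hu hb h⟩
  have hKle : ∀ v ∈ K, v ∈ D.U ∧ D.s k v ≤ θ := fun v hv => ⟨(hK1 v hv).1, (hK1 v hv).2.le⟩
  have hval : ∀ b, b ∈ D.U ∨ b ∈ D.P k.1 → D.c k b / θ = 2 ^ (j + 1) * D.cv k b := by
    intro b hb
    have e1 : D.c k b / θ = 2 ^ (j + 1) * D.c k b := by
      rw [hθ]; field_simp
    rw [e1]
    unfold Dom.cv
    split_ifs with h
    · rfl
    · rw [hc.cP b (hb.resolve_left h)]
  -- the common part
  have hout : ∀ N : Set V, (∀ b ∈ N, b ∈ Nb G K) → Disjoint K N := fun N hN =>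
    Set.disjoint_left.2 fun v hv hvN => (hN v hvN).1 hv
  rcases hk : k with ⟨i, t⟩
  have hki : k.1 = i := by rw [hk]
  cases t with
  | true =>
    have htau : D.tau k = D.w k.1 := by
      funext b
      simp [Dom.tau, hk]
    have hc' : IsCoord G ℓ D.U (D.P k.1) (D.w k.1) ct (D.c k) (D.s k) := htau ▸ hc
    obtain ⟨N, hne, hd, hcov, hN⟩ := hW V G ℓ hS.conn hS.pos D.U (D.P k.1) K (D.w k.1) ct (D.c k)
      (D.s k) θ hg.conn (hg.out k.1) (hg.pne k.1) (hg.foot k.1) (hg.inj k.1) (hg.b k.1) (hg.c k.1)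
      hSP hc' hθ0 hθ1 hKU (fun v hv => (hK1 v hv).2) hKc hK3 hK4
    have hNb : ∀ i, ∀ b ∈ N i, b ∈ Nb G K := fun i b hb => (hcov b).2 ⟨i, hb⟩
    let f : Fin 3 → Fin 2 := ![0, 1, 1]
    refine ⟨fun i => N (f i), fun _ v => D.c k v / θ, ?_, ?_, ?_⟩
    · refine ⟨⟨x, hxK⟩, hconn, fun i => hout _ (hNb _), fun i => hne _,
        fun i b hb => (hNb _ b hb).2, ?_, ?_, ?_, ?_, ?_, ?_, fun i => (hN _).2.2⟩
      · intro v hv b hb hvb
        obtain ⟨i, hi⟩ := (hcov b).1 ⟨hb, v, hv, hvb⟩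
        fin_cases i
        · exact ⟨0, hi⟩
        · exact ⟨1, hi⟩
      · intro i i'
        fin_cases i <;> fin_cases i'
        · exact Or.inl ⟨rfl, rfl⟩
        · exact Or.inr hd
        · exact Or.inr hd
        · exact Or.inr hd.symm
        · exact Or.inl ⟨rfl, rfl⟩
        · exact Or.inl ⟨rfl, rfl⟩
        · exact Or.inr hd.symm
        · exact Or.inl ⟨rfl, rfl⟩
        · exact Or.inl ⟨rfl, rfl⟩
      · exact ⟨0, 1, hd⟩
      · intro i b hb b' hb' h
        refine (hN (f i)).1 hb hb' ?_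
        have h' : D.c k b / θ = D.c k b' / θ := h
        field_simp at h'
        exact h'
      · exact fun i => condA_child hslope hS.pos hθ0 hKle fun b hb => hnbK b (hNb _ b hb)
      · intro i b hb b' hb'
        have h := (hN (f i)).2.1 b hb b' hb'
        have e : |D.c k b / θ - D.c k b' / θ| = |D.c k b - D.c k b'| / θ := by
          rw [← sub_div, abs_div, abs_of_pos hθ0]
        show _ ≤ |D.c k b / θ - D.c k b' / θ|
        rw [e]
        exact h
    · intro i b hb
      have := hnbK b (hNb _ b hb)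
      rw [hk] at this
      exact this
    · intro i
      refine Or.inl fun b hb => ?_
      have := hval b (hnbK b (hNb _ b hb))
      rw [hk] at this
      rw [← this, hk]
  | false =>
    have htau : D.tau k = fun _ => 0 := by
      funext b
      simp [Dom.tau, hk]
    have hc' : IsCoord G ℓ D.U (D.P k.1) (fun _ => 0) ct (D.c k) (D.s k) := htau ▸ hc
    obtain ⟨N, ty, hne, hd, h2, hcov, hN, hQ⟩ := h0 V G ℓ hS.conn hS.pos D.U (D.P k.1) K (D.w k.1)
      ct (D.c k) (D.s k) θ hg.conn (hg.out k.1) (hg.pne k.1) (hg.foot k.1) (hg.inj k.1) (hg.b k.1)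
      (hg.c k.1) hSP hc' hθ0 hθ1 hKU (fun v hv => (hK1 v hv).2) hKc hK3 hK4
    have hNb : ∀ i, ∀ b ∈ N i, b ∈ Nb G K := fun i b hb => (hcov b).2 ⟨i, hb⟩
    have hpc : ∀ i, (∀ b ∈ N i, (if ty i = true then fun v => D.c k v / θ else D.w k.1) b =
        2 ^ (j + 1) * D.cv k b) ∨ (k.2 = false ∧ ∀ b ∈ N i, b ∈ D.P k.1) := by
      intro i
      by_cases h : ty i = true
      · refine Or.inl fun b hb => ?_
        rw [if_pos h]
        exact hval b (hnbK b (hNb _ b hb))
      · exact Or.inr ⟨by rw [hk], (hQ i (by simpa using h)).1⟩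
    refine ⟨N, fun i => if ty i = true then (fun v => D.c k v / θ) else D.w k.1, ?_, ?_, ?_⟩
    · refine ⟨⟨x, hxK⟩, hconn, fun i => hout _ (hNb _), fun i => hne _,
        fun i b hb => (hNb _ b hb).2, ?_, ?_, ⟨0, 1, hd⟩, ?_, ?_, ?_, ?_⟩
      · intro v hv b hb hvb
        exact (hcov b).1 ⟨hb, v, hv, hvb⟩
      · intro i i'
        rcases h2 with ⟨h2, h3⟩ | ⟨h2, h3⟩
        · fin_cases i <;> fin_cases i'
          · exact Or.inl ⟨rfl, rfl⟩
          · exact Or.inr hd
          · refine Or.inr ?_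
            show Disjoint (N 0) (N 2)
            rw [h2]; exact hd
          · exact Or.inr hd.symm
          · exact Or.inl ⟨rfl, rfl⟩
          · refine Or.inl ⟨h2.symm, ?_⟩
            show (if ty 1 = true then (fun v => D.c k v / θ) else D.w k.1) =
              if ty 2 = true then (fun v => D.c k v / θ) else D.w k.1
            rw [h3]
          · refine Or.inr ?_
            show Disjoint (N 2) (N 0)
            rw [h2]; exact hd.symm
          · refine Or.inl ⟨h2, ?_⟩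
            show (if ty 2 = true then (fun v => D.c k v / θ) else D.w k.1) =
              if ty 1 = true then (fun v => D.c k v / θ) else D.w k.1
            rw [h3]
          · exact Or.inl ⟨rfl, rfl⟩
        · fin_cases i <;> fin_cases i'
          · exact Or.inl ⟨rfl, rfl⟩
          · exact Or.inr hd
          · exact Or.inr h2.symm
          · exact Or.inr hd.symm
          · exact Or.inl ⟨rfl, rfl⟩
          · exact Or.inr h3.symm
          · exact Or.inr h2
          · exact Or.inr h3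
          · exact Or.inl ⟨rfl, rfl⟩
      · intro i
        by_cases h : ty i = true
        · intro b hb b' hb' hbb
          simp only [h, if_true] at hbb
          refine (hN i h).1 hb hb' ?_
          field_simp at hbb
          exact hbb
        · intro b hb b' hb' hbb
          have h' : ty i = false := by simpa using h
          simp only [h', Bool.false_eq_true, if_false] at hbb
          exact hg.inj k.1 ((hQ i h').1 hb) ((hQ i h').1 hb') hbb
      · intro i
        by_cases h : ty i = true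
        · simp only [h, if_true]
          exact condA_child hslope hS.pos hθ0 hKle fun b hb => hnbK b (hNb _ b hb)
        · have h' : ty i = false := by simpa using h
          simp only [h', Bool.false_eq_true, if_false]
          exact (hg.a k.1).mono hKU (hQ i h').1
      · intro i b hb b' hb'
        by_cases h : ty i = true
        · simp only [h, if_true]
          have h1 := (hN i h).2.1 b hb b' hb'
          have e : |D.c k b / θ - D.c k b' / θ| = |D.c k b - D.c k b'| / θ := by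
            rw [← sub_div, abs_div, abs_of_pos hθ0]
          rw [e]
          exact h1
        · have h' : ty i = false := by simpa using h
          simp only [h', Bool.false_eq_true, if_false]
          exact hg.b k.1 b ((hQ i h').1 hb) b' ((hQ i h').1 hb')
      · intro i
        by_cases h : ty i = true
        · simp only [h, if_true]
          exact (hN i h).2.2
        · have h' : ty i = false := by simpa using h
          simp only [h', Bool.false_eq_true, if_false]
          exact (hQ i h').2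
    · intro i b hb
      have := hnbK b (hNb _ b hb)
      rw [hk] at this
      exact this
    · intro i
      have := hpc i
      rw [hk] at this
      simpa [hk] using this

end Vale.Agent.P235.LL
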