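/-
P235-LL (helper611).  (COORDS): a good set of pieces has coordinates.
-/
import Vale.Agent.P235.LL.H611.GRows

set_option linter.all false
set_option autoImplicit false

namespace Vale.Agent.P235.LL

open SimpleGraph H510

theorem rowCoords : RowCoords := by
  classical
  intro V _ G ℓ hS U P w hg
  have hk : ∀ k : Fin 3 × Bool, ∃ ct c s : V → ℝ,
      IsCoord G ℓ U (P k.1) (fun b => if k.2 = true then w k.1 b else 0) ct c s := by
    rintro ⟨i, t⟩
    refine coord hS.pos (hg.out i) hg.conn ?_ ?_
    · obtain ⟨b, hb⟩ := hg.pne i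
      obtain ⟨v, hv, hvb⟩ := hg.foot i b hb
      exact ⟨v, hv, b, hb, hvb⟩
    · intro b hb b' hb' v v' p hp h1 h2
      have h3 := hg.a i b hb b' hb' v v' p hp h1 h2
      cases t with
      | true =>
        simp only [if_true]
        rw [abs_sub_comm] at h3
        exact (le_abs_self _).trans h3
      | false =>
        simp only [Bool.false_eq_true, if_false, sub_self]
        exact (abs_nonneg _).trans h3
  choose ct c s hc using hk
  refine ⟨⟨U, P, w, c, s⟩, rfl, rfl, rfl, hg, fun k => ⟨ct k, ?_⟩⟩
  exact hc k

end Vale.Agent.P235.LL
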